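import Vale.Agent.Lib.P362.Interface

/-! P362, PartZero: a tree of depth `q` distinguishes the all-ones input from an input with one
hidden zero with advantage at most `q / |X|`. -/

namespace P362
namespace ZeroP

variable {X : Type} {R : Type}

/-- the variables on the path of the all-ones input -/
def path : DT X R → List X
  | .leaf _ => []
  | .node v _ t1 => v :: path t1

theorem path_length (t : DT X R) : (path t).length ≤ t.depth := by
  induction t with
  | leaf r => simp [path]
  | node v t0 t1 h0 h1 =>
    simp only [path, List.length_cons, DT.depth]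
    have := le_max_right t0.depth t1.depth
    omega

theorem eval_eq [DecidableEq X] (t : DT X R) (i : X) (hi : i ∉ path t) :
    t.eval (fun j => decide (j ≠ i)) = t.eval (fun _ => true) := by
  induction t with
  | leaf r => rfl
  | node v t0 t1 h0 h1 =>
    simp only [path, List.mem_cons, not_or] at hi
    have hv : v ≠ i := fun h => hi.1 h.symm
    have h := h1 hi.2
    simp only [DT.eval]
    simp only [ne_eq, hv, not_false_eq_true, decide_true, if_true]
    exact h

theorem sum_single {Y : Type} [Fintype Y] [DecidableEq Y] (P : Y → Prop) [DecidablePred P]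
    (a : Y) : (∑ x : Y, if P x then (if x = a then (1 : ℝ) else 0) else 0) =
      if P a then 1 else 0 := by
  rw [Finset.sum_eq_single a]
  · simp
  · intro b _ hb
    simp [hb]
  · intro h
    exact absurd (Finset.mem_univ a) h

end ZeroP

open ZeroP

theorem partZero : PartZero := by
  intro X _ _ _ q T hT
  have hc : (0 : ℝ) < Fintype.card X := by exact_mod_cast Fintype.card_pos
  have h1 : acc (fun x : X → Bool => if x = (fun _ => true) then (1 : ℝ) else 0) T =
      if T.eval (fun _ => true) = true then 1 else 0 := by
    unfold acc
    exact sum_single (fun x => T.eval x = true) (fun _ => true)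
  have h2 : acc (fun x : X → Bool =>
      (∑ i : X, if x = (fun j => decide (j ≠ i)) then (1 : ℝ) else 0) / Fintype.card X) T =
      (∑ i : X, if T.eval (fun j => decide (j ≠ i)) = true then (1 : ℝ) else 0) /
        Fintype.card X := by
    unfold acc
    have h : ∀ x : X → Bool, (if T.eval x = true then
        (∑ i : X, if x = (fun j => decide (j ≠ i)) then (1 : ℝ) else 0) / Fintype.card X else 0) =
        (∑ i : X, if T.eval x = true then
          (if x = (fun j => decide (j ≠ i)) then (1 : ℝ) else 0) else 0) / Fintype.card X := by
      intro x
      by_cases hx : T.eval x = true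
      · simp only [hx, if_true]
      · simp only [hx, Bool.false_eq_true, if_false, Finset.sum_const_zero, zero_div]
    rw [Finset.sum_congr rfl (fun x _ => h x), ← Finset.sum_div, Finset.sum_comm]
    congr 1
    refine Finset.sum_congr rfl fun i _ => ?_
    exact sum_single (fun x => T.eval x = true) (fun j => decide (j ≠ i))
  rw [h1, h2]
  have h3 : (if T.eval (fun _ => true) = true then (1 : ℝ) else 0) =
      (∑ _i : X, if T.eval (fun _ => true) = true then (1 : ℝ) else 0) / Fintype.card X := by
    rw [Finset.sum_const, Finset.card_univ, nsmul_eq_mul]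
    field_simp
  rw [h3, ← sub_div, ← Finset.sum_sub_distrib, abs_div, abs_of_pos hc]
  refine div_le_div_of_nonneg_right ?_ hc.le
  refine (Finset.abs_sum_le_sum_abs _ _).trans ?_
  have h4 : ∀ i : X, |(if T.eval (fun _ => true) = true then (1 : ℝ) else 0) -
      (if T.eval (fun j => decide (j ≠ i)) = true then (1 : ℝ) else 0)| ≤
      if i ∈ (path T).toFinset then 1 else 0 := by
    intro i
    by_cases hi : i ∈ path T
    · rw [if_pos (List.mem_toFinset.2 hi)]
      split_ifs <;> norm_num
    · rw [if_neg (fun h => hi (List.mem_toFinset.1 h)), eval_eq T i hi, sub_self, abs_zero]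
  refine (Finset.sum_le_sum fun i _ => h4 i).trans ?_
  rw [Finset.sum_ite_mem, Finset.univ_inter, Finset.sum_const, nsmul_eq_mul, mul_one]
  have h5 : (path T).toFinset.card ≤ q :=
    (List.toFinset_card_le _).trans ((path_length T).trans hT)
  exact_mod_cast h5

end P362
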